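import Vale.Agent.P141.PL.H804.Joint

/-!
# The middle step of a saturated Gram matrix against an ARBITRARY positive semidefinite partner

`phi X = X (1 + X)⁻¹`.  For positive semidefinite `a`, `b`
`phi a + (1/2) phi b - phi (a + b) ≤ phi a * phi b * phi a` as operators.
-/

set_option linter.unusedSectionVars false

namespace Vale.Agent.P141.H45

open Matrix Vale.Agent.P075

variable {n : Type*} [Fintype n] [DecidableEq n]

/-- the exact identity behind the middle step -/
theorem phi_add_eq {a b : Matrix n n ℝ} (ha : a.PosSemidef) (hb : b.PosSemidef) :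
    phi (a + b) - phi a
      = res a * phi b * res a + res a * (b * (res b - res (a + b)) * b) * res a := by
  have ha1 := one_add_mul_res ha
  have ha2 := res_mul_one_add ha
  have hb1 := one_add_mul_res hb
  have hb2 := res_mul_one_add hb
  have hc1 := one_add_mul_res (ha.add hb)
  have hc2 := res_mul_one_add (ha.add hb)
  set p := res a with hp
  set q := res b with hq
  set r := res (a + b) with hr
  -- `phi b = b - b q b`
  have e1 : phi b = b - b * q * b := by
    have h1 : b * q = 1 - q := by
      have : (1 + b) * q = 1 := hb1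
      rw [Matrix.add_mul, Matrix.one_mul] at this
      rw [← this]; abel
    have h2 : q * b = 1 - q := by
      have : q * (1 + b) = 1 := hb2
      rw [Matrix.mul_add, Matrix.mul_one] at this
      rw [← this]; abel
    rw [h1, Matrix.sub_mul, Matrix.one_mul, h2, phi, ← hq]
    abel
  have e2 : phi (a + b) - phi a = p - r := by rw [phi, phi]; abel
  rw [e2, e1]
  -- `(1 + a) r (1 + a) = (1 + a) - b + b r b`
  have e3 : (1 + a) * r * (1 + a) = (1 + a) - b + b * r * b := by
    have h1 : (1 + a) * r = 1 - b * r := by
      have : (1 + (a + b)) * r = 1 := hc1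
      have h' : (1 + (a + b)) * r = (1 + a) * r + b * r := by noncomm_ring
      rw [h'] at this
      exact eq_sub_of_add_eq this
    have h2 : r * (1 + a) = 1 - r * b := by
      have : r * (1 + (a + b)) = 1 := hc2
      have h' : r * (1 + (a + b)) = r * (1 + a) + r * b := by noncomm_ring
      rw [h'] at this
      exact eq_sub_of_add_eq this
    rw [h1, Matrix.sub_mul, Matrix.one_mul, Matrix.mul_assoc b r, h2]
    noncomm_ring
  have e4 : r = p * ((1 + a) - b + b * r * b) * p := by
    rw [← e3]
    have : p * ((1 + a) * r * (1 + a)) * p = (p * (1 + a)) * r * ((1 + a) * p) := by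
      simp only [Matrix.mul_assoc]
    rw [this, ha1, ha2, Matrix.one_mul, Matrix.mul_one]
  have e5 : p * (1 + a) * p = p := by rw [ha2, Matrix.one_mul]
  calc p - r = p * (1 + a) * p - p * ((1 + a) - b + b * r * b) * p := by rw [e5, ← e4]
    _ = p * (b - b * q * b) * p + p * (b * (q - r) * b) * p := by noncomm_ring

/-- **Operator inequality.** -/
theorem phi_mid {a b : Matrix n n ℝ} (ha : a.PosSemidef) (hb : b.PosSemidef) :
    (phi (a + b) - phi a - (1 / 2 : ℝ) • phi b + phi a * phi b * phi a).PosSemidef := by
  have h1 := phi_add_eq ha hb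
  have hs : (1 - (2 : ℝ) • phi a)ᵀ = 1 - (2 : ℝ) • phi a := by
    rw [transpose_sub, transpose_one, transpose_smul, psd_isSymm (phi_psd ha)]
  have hra : (res a)ᵀ = res a := by
    have := psd_isSymm (phi_psd ha)
    rw [phi, transpose_sub, transpose_one] at this
    exact sub_right_injective this
  have e : phi (a + b) - phi a - (1 / 2 : ℝ) • phi b + phi a * phi b * phi a
      = (1 / 2 : ℝ) • ((1 - (2 : ℝ) • phi a) * phi b * (1 - (2 : ℝ) • phi a))
        + res a * (b * (res b - res (a + b)) * b) * res a := by
    have e0 : res a = 1 - phi a := by rw [phi]; abel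
    rw [h1]
    have : res a * phi b * res a - (1 / 2 : ℝ) • phi b + phi a * phi b * phi a
        = (1 / 2 : ℝ) • ((1 - (2 : ℝ) • phi a) * phi b * (1 - (2 : ℝ) • phi a)) := by
      rw [e0]
      simp only [Matrix.sub_mul, Matrix.mul_sub, Matrix.one_mul, Matrix.mul_one, smul_mul_assoc,
        mul_smul_comm, smul_sub, smul_smul]
      norm_num
      module
    rw [← this]
    abel
  rw [e]
  refine ((psd_conj_symm (phi_psd hb) hs).smul (by norm_num)).add ?_
  refine psd_conj_symm (psd_conj_symm ?_ (psd_isSymm hb)) hra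
  have := res_anti hb ha
  rwa [add_comm b a] at this

/-- **Middle step with an arbitrary positive semidefinite partner** `X ≤ K`; `r` the sign
matrix. The defect is `K` times the (summable) own gap of `a` alone. -/
theorem mid_partner {X a r : Matrix n n ℝ} {K : ℝ} (hX : X.PosSemidef)
    (hK : (K • (1 : Matrix n n ℝ) - X).PosSemidef) (hK0 : 0 ≤ K) (ha : a.PosSemidef)
    (hr : rᵀ = r) (hr2 : r * r = 1) :
    (X * phi a).trace + (1 / 2) * (X * (r * phi a * r)).trace
      ≤ (X * phi (a + r * a * r)).trace + K * (phi a * (r * phi a * r)).trace := by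
  have hb : (r * a * r).PosSemidef := psd_conj_symm ha hr
  have h1 := phi_mid ha hb
  have h2 := trace_mul_nonneg hX h1
  rw [phi_refl ha hr hr2] at h2
  simp only [Matrix.mul_add, Matrix.mul_sub, trace_add, trace_sub, Matrix.mul_smul, trace_smul,
    smul_eq_mul] at h2
  have hA := phi_psd ha
  have hB : (r * phi a * r).PosSemidef := psd_conj_symm hA hr
  have hABA : (phi a * (r * phi a * r) * phi a).PosSemidef := psd_conj_symm hB (psd_isSymm hA)
  have h3 : (X * (phi a * (r * phi a * r) * phi a)).trace
      ≤ K * (phi a * (r * phi a * r) * phi a).trace := by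
    have := trace_mul_le_left (V := X) (W := K • (1 : Matrix n n ℝ)) hABA hK
    rwa [smul_mul_assoc, Matrix.one_mul, trace_smul, smul_eq_mul] at this
  have h4 : (phi a * (r * phi a * r) * phi a).trace ≤ (phi a * (r * phi a * r)).trace := by
    rw [trace_mul_comm, ← Matrix.mul_assoc]
    exact trace_mul_le_left hB (phi_sub_sq_psd ha)
  have h5 := mul_le_mul_of_nonneg_left h4 hK0
  linarith

/-- the same with a multiplier `U` that commutes with the sign matrix: partner `X = Uᵀ Y U` -/
theorem mid_mult {Y U a r : Matrix n n ℝ} {K : ℝ} (hY : Y.PosSemidef)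
    (hK : (K • (1 : Matrix n n ℝ) - Uᵀ * Y * U).PosSemidef) (hK0 : 0 ≤ K) (ha : a.PosSemidef)
    (hr : rᵀ = r) (hr2 : r * r = 1) (hU : U * r = r * U) :
    (Y * (U * phi a * Uᵀ)).trace + (1 / 2) * (Y * (r * (U * phi a * Uᵀ) * r)).trace
      ≤ (Y * (U * phi (a + r * a * r) * Uᵀ)).trace + K * (phi a * (r * phi a * r)).trace := by
  have hX : (Uᵀ * Y * U).PosSemidef := by
    have := psd_conj hY Uᵀ
    rwa [transpose_transpose] at this
  have h := mid_partner hX hK hK0 ha hr hr2
  have hU' : r * Uᵀ = Uᵀ * r := by
    have := congrArg transpose hU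
    rwa [transpose_mul, transpose_mul, hr] at this
  have e : ∀ Z : Matrix n n ℝ, (Y * (U * Z * Uᵀ)).trace = (Uᵀ * Y * U * Z).trace := by
    intro Z
    have : Y * (U * Z * Uᵀ) = (Y * U * Z) * Uᵀ := by simp only [Matrix.mul_assoc]
    rw [this, trace_mul_comm]
    simp only [Matrix.mul_assoc]
  have e2 : r * (U * phi a * Uᵀ) * r = U * (r * phi a * r) * Uᵀ := by
    calc r * (U * phi a * Uᵀ) * r = (r * U) * phi a * (Uᵀ * r) := by
          simp only [Matrix.mul_assoc]
      _ = (U * r) * phi a * (r * Uᵀ) := by rw [hU, hU']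
      _ = U * (r * phi a * r) * Uᵀ := by simp only [Matrix.mul_assoc]
  rw [e2, e, e, e]
  exact h

end Vale.Agent.P141.H45
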